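import Vale.Agent.P160.Half.Fin.Zero685

namespace Vale.Agent.Results.P160.Half

open Filter

/-- The set of all symmetric `n × n` integer matrices with every entry equal to `1` or `-1`. -/
def SymmetricSignMatrices (n : ℕ) : Set (Matrix (Fin n) (Fin n) ℤ) :=
  {A | A.IsSymm ∧ ∀ i j, A i j = 1 ∨ A i j = -1}

/-- The probability that a uniformly random symmetric sign matrix of size `n` is singular. -/
noncomputable def q (n : ℕ) : ℝ :=
  (Set.ncard {A : Matrix (Fin n) (Fin n) ℤ | A ∈ SymmetricSignMatrices n ∧ A.det = 0} : ℝ) /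
    (Set.ncard (SymmetricSignMatrices n) : ℝ)

/-- The singularity probability `q_n` of the uniform symmetric `n × n` sign matrix has exponential
rate exactly `1/2`. -/
theorem result :
    Tendsto (fun n : ℕ => q n ^ (1 / (n : ℝ))) atTop (nhds (1 / 2)) ∧
    (∀ c : ℝ, 1 / 2 < c → ∀ᶠ n : ℕ in atTop, q n ≤ c ^ n) :=
  Vale.Agent.P160.Half.Zero685.main

end Vale.Agent.Results.P160.Half
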